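import Vale.Agent.P067.PB.Maazen

/-!
Maazen's theorem for vectors over polynomials over a field and over a local ring.
-/

namespace Vale.Agent.P067.PB

open Finset Vale.Agent.P067.Sub Polynomial

/-- The size of polynomials. -/
noncomputable def polySize (K : Type*) [Field K] : Size K[X] where
  deg a := haveI := Classical.dec (a = 0); if a = 0 then 0 else a.natDegree + 1
  small := ⊥
  deg_eq_zero a := by
    rw [Ideal.mem_bot]
    by_cases h : a = 0 <;> simp [h]
  unit x hx := by
    rw [Ideal.mem_bot] at hx
    simp [hx]
  div a b hb := by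
    have hb0 : b ≠ 0 := fun h => hb (by simp [h])
    refine ⟨a / b, ?_⟩
    have e : a - a / b * b = a % b := by
      rw [EuclideanDomain.mod_eq_sub_mul_div, mul_comm]
    rw [e]
    by_cases h : a % b = 0
    · simp [h, hb0]
    · rw [if_neg h, if_neg hb0]
      have h2 : (a % b).degree < b.degree := Polynomial.degree_mod_lt a hb0
      have := Polynomial.natDegree_lt_natDegree h h2
      omega

/-- The size on a local ring: one at units. -/
noncomputable def localSize (R : Type*) [CommRing R] [IsLocalRing R] : Size R where
  deg a := haveI := Classical.dec (IsUnit a); if IsUnit a then 1 else 0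
  small := IsLocalRing.maximalIdeal R
  deg_eq_zero a := by
    rw [IsLocalRing.mem_maximalIdeal, mem_nonunits_iff]
    by_cases h : IsUnit a <;> simp [h]
  unit x hx := IsLocalRing.isUnit_one_sub_self_of_mem_nonunits x hx
  div a b hb := by
    have hu : IsUnit b := by
      by_contra h
      exact hb (by simp [h])
    obtain ⟨c, hc⟩ := hu.exists_left_inv
    refine ⟨a * c, ?_⟩
    rw [mul_assoc, hc, mul_one, sub_self]
    simp [hu]

variable {n : ℕ}

/-- The projection off the span of a partial basis. -/
theorem exists_proj {A : Type*} [CommRing A] [DecidableEq (Fin n → A)] {U : Finset (Fin n → A)} (hU : IsPB A U) :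
    ∃ π : (Fin n → A) →ₗ[A] (Fin n → A), (∀ u ∈ U, π u = 0) ∧ (∀ x, π (π x) = π x) ∧
      ∀ x, x - π x ∈ Submodule.span A (U : Set (Fin n → A)) := by
  obtain ⟨f, hf⟩ := hU
  have hU0 : ∀ u ∈ U, u - ∑ v ∈ U, f v u • v = 0 := by
    intro u hu
    have e : ∀ v ∈ U, f v u • v = if v = u then v else 0 := fun v hv => by
      rw [hf v hv u hu]
      split_ifs <;> simp
    rw [Finset.sum_congr rfl e, Finset.sum_ite_eq', if_pos hu, sub_self]
  set π := LinearMap.id - ∑ v ∈ U, (f v).smulRight v with hπ
  have happ : ∀ x, π x = x - ∑ v ∈ U, f v x • v := fun x => by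
    simp [hπ, LinearMap.sum_apply]
  refine ⟨π, fun u hu => by rw [happ, hU0 u hu], fun x => ?_, fun x => ?_⟩
  · have h0 : ∀ u ∈ U, f u (π x) = 0 := fun u hu => by
      rw [happ, map_sub, map_sum]
      have e : ∀ v ∈ U, f u (f v x • v) = if u = v then f v x else 0 := fun v hv => by
        rw [map_smul, hf u hu v hv]
        split_ifs <;> simp
      rw [Finset.sum_congr rfl e, Finset.sum_ite_eq, if_pos hu, sub_self]
    conv_lhs => rw [happ]
    rw [Finset.sum_eq_zero fun v hv => by rw [h0 v hv, zero_smul], sub_zero]
  · rw [happ, sub_sub_cancel]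
    exact Submodule.sum_mem _ fun v hv => Submodule.smul_mem _ _ (Submodule.subset_span hv)

theorem ext_pid {A : Type*} [CommRing A] [IsDomain A] [IsPrincipalIdealRing A]
    [DecidableEq (Fin n → A)]
    {U : Finset (Fin n → A)} (hU : IsPB A U) (hc : U.card < n) :
    ∃ e : Fin n → A, ∃ l : (Fin n → A) →ₗ[A] A, (∀ u ∈ U, l u = 0) ∧ l e = 1 := by
  obtain ⟨π, hπU, hπ2, hπspan⟩ := exists_proj hU
  obtain ⟨m, b⟩ := Submodule.basisOfPid (Pi.basisFun A (Fin n)) (LinearMap.range π)
  rcases Nat.eq_zero_or_pos m with rfl | hm
  · have htop : Submodule.span A (U : Set (Fin n → A)) = ⊤ := by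
      rw [eq_top_iff]
      intro x _
      have h0 : (⟨π x, LinearMap.mem_range_self π x⟩ : LinearMap.range π) = 0 :=
        b.ext_elem (fun i => i.elim0)
      have := hπspan x
      rw [show π x = 0 from congrArg Subtype.val h0, sub_zero] at this
      exact this
    have h1 : Module.finrank A (Fin n → A) ≤ U.card := by
      rw [← finrank_top, ← htop]
      exact finrank_span_finset_le_card U
    simp at h1
    omega
  · refine ⟨(b ⟨0, hm⟩ : Fin n → A),
      (b.coord ⟨0, hm⟩).comp π.rangeRestrict, fun u hu => ?_, ?_⟩
    · have h0 : π.rangeRestrict u = 0 := Subtype.ext (hπU u hu)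
      rw [LinearMap.comp_apply, h0, map_zero]
    · have h0 : π.rangeRestrict (b ⟨0, hm⟩ : Fin n → A) = b ⟨0, hm⟩ := by
        obtain ⟨x, hx⟩ := (b ⟨0, hm⟩).2
        refine Subtype.ext ?_
        show π _ = _
        rw [← hx, hπ2]
      rw [LinearMap.comp_apply, h0, Module.Basis.coord_apply, Module.Basis.repr_self,
        Finsupp.single_eq_same]

theorem ext_local {R : Type*} [CommRing R] [IsLocalRing R] [DecidableEq (Fin n → R)]
    {U : Finset (Fin n → R)}
    (hU : IsPB R U) (hc : U.card < n) :
    ∃ e : Fin n → R, ∃ l : (Fin n → R) →ₗ[R] R, (∀ u ∈ U, l u = 0) ∧ l e = 1 := by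
  classical
  obtain ⟨π, hπU, hπ2, hπspan⟩ := exists_proj hU
  by_cases h : ∃ x j, IsUnit (π x j)
  · obtain ⟨x, j, hj⟩ := h
    obtain ⟨c, hc⟩ := hj.exists_left_inv
    exact ⟨π x, c • (LinearMap.proj j).comp π, fun u hu => by simp [hπU u hu],
      by simp [hπ2, hc]⟩
  · exfalso
    push Not at h
    let res := IsLocalRing.residue R
    let k := IsLocalRing.ResidueField R
    have hres : ∀ x j, res (π x j) = 0 := fun x j =>
      IsLocalRing.residue_eq_zero_iff _ |>.mpr (h x j)
    let φ : (Fin n → R) → (Fin n → k) := fun x j => res (x j)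
    have hspan : ∀ y ∈ Submodule.span R (U : Set (Fin n → R)),
        φ y ∈ Submodule.span k ((U.image φ : Finset (Fin n → k)) : Set (Fin n → k)) := by
      intro y hy
      induction hy using Submodule.span_induction with
      | mem y hy => exact Submodule.subset_span (Finset.mem_image_of_mem φ hy)
      | zero =>
        have : φ 0 = 0 := funext fun j => map_zero res
        rw [this]; exact Submodule.zero_mem _
      | add a b _ _ ha hb =>
        have : φ (a + b) = φ a + φ b := funext fun j => map_add res _ _
        rw [this]; exact Submodule.add_mem _ ha hb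
      | smul r a _ ha =>
        have : φ (r • a) = res r • φ a := funext fun j => map_mul res _ _
        rw [this]; exact Submodule.smul_mem _ _ ha
    have htop : Submodule.span k ((U.image φ : Finset (Fin n → k)) : Set (Fin n → k)) = ⊤ := by
      rw [eq_top_iff]
      intro y _
      choose x hx using fun j => IsLocalRing.residue_surjective (y j)
      have e : φ (x - π x) = y := funext fun j => by
        show res (x j - π x j) = y j
        rw [map_sub, hres, sub_zero]
        exact hx j
      exact e ▸ hspan _ (hπspan x)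
    have h1 : Module.finrank k (Fin n → k) ≤ (U.image φ).card := by
      rw [← finrank_top, ← htop]
      exact finrank_span_finset_le_card _
    have h2 := Finset.card_image_le (s := U) (f := φ)
    simp at h1
    omega

/-- Partial bases of polynomial vectors over a field. -/
theorem acyc_poly {K : Type*} [Field K] [DecidableEq (Fin n → K[X])] {U : Finset (Fin n → K[X])}
    (hU : IsPB K[X] U) {k : ℕ} (h : k + U.card < n) : Acyc (Lk K[X] U) k :=
  acyc_link (polySize K) n (fun _ hU hc => ext_pid hU hc) k U hU h

/-- Partial bases of vectors over a local ring. -/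
theorem acyc_local {R : Type*} [CommRing R] [IsLocalRing R] [DecidableEq (Fin n → R)]
    {U : Finset (Fin n → R)} (hU : IsPB R U) {k : ℕ} (h : k + U.card < n) :
    Acyc (Lk R U) k :=
  acyc_link (localSize R) n (fun _ hU hc => ext_local hU hc) k U hU h

end Vale.Agent.P067.PB
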