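import Vale.Agent.P067.Sub.Chain

/-!
Pushing a cycle off the bad vertices of a complex, when the good parts of the links of bad faces
are acyclic.
-/

namespace Vale.Agent.P067.PB

open Finset Vale.Agent.P067.Sub

variable {α : Type*} [DecidableEq α]

/-- Every cycle of faces with `k` vertices bounds (the empty face is the augmentation). -/
def Acyc (P : Finset α → Prop) (k : ℕ) : Prop :=
  ∀ z ∈ On (fun s => P s ∧ s.card = k), bd z = 0 →
    ∃ y ∈ On (fun s => P s ∧ s.card = k + 1), bd y = z

/-- A vertex map fixing a face fixes it as a chain. -/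
theorem push_fix (v : α) (a : α → α) {s : Finset α} (h : ∀ x ∈ s, a x = x) :
    push v a (sg s) = sg s := by
  induction s using Finset.strongInduction with
  | H s ih =>
    rcases eq_or_ne s ∅ with rfl | hne
    · exact recMap_empty
    · have e1 : push v a (bd (sg s)) = bd (sg s) := by
        rw [bd_sg, map_sum]
        exact Finset.sum_congr rfl fun x hx =>
          ih _ (Finset.erase_ssubset hx) fun y hy => h y (Finset.mem_of_mem_erase hy)
      have h1 : push v a (sg s) = cone (pick v s) (bd (sg s)) := by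
        conv_lhs => rw [push, recMap_sg hne, LinearMap.zero_apply, zero_add]
        rw [h _ (pick_mem v hne)]
        exact congrArg (cone (pick v s)) e1
      have h2 := bd_cone (pick v s) (sg s)
      have h3 : cone (pick v s) (sg s) = 0 := by
        rw [cone, lift_sg, if_pos (pick_mem v hne)]
      rw [h3, map_zero, zero_add] at h2
      rw [h1]
      exact h2

variable (B : α → Prop) [DecidablePred B]

/-- The part of the faces with bad part `σ`, cut down to their good parts. -/
noncomputable def proj (σ : Finset α) : Ch α →ₗ[ZMod 2] Ch α :=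
  lift fun t => if t.filter B = σ then sg (t \ σ) else 0

/-- Joining with a fixed face. -/
noncomputable def joinBy (σ : Finset α) : Ch α →ₗ[ZMod 2] Ch α :=
  lift fun t => sg (σ ∪ t)

/-- The part of the boundary of a join coming from the fixed face. -/
noncomputable def rest (σ : Finset α) : Ch α →ₗ[ZMod 2] Ch α :=
  lift fun t => ∑ x ∈ σ, sg (σ.erase x ∪ t)

theorem bd_proj {σ : Finset α} {z : Ch α}
    (hz : z ∈ On fun t => (t.filter B).card ≤ σ.card) :
    bd (proj B σ z) = proj B σ (bd z) := by
  have h : (bd.comp (proj B σ) + (proj B σ).comp bd) z ∈ (⊥ : Submodule (ZMod 2) (Ch α)) := by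
    refine map_On _ (fun t ht => ?_) hz
    rw [Submodule.mem_bot, LinearMap.add_apply, LinearMap.comp_apply, LinearMap.comp_apply, proj,
      lift_sg, bd_sg t, map_sum]
    simp only [lift_sg]
    by_cases hσ : t.filter B = σ
    · have hsub : σ ⊆ t := hσ ▸ Finset.filter_subset _ _
      rw [if_pos hσ, bd_sg, ← Finset.sum_sdiff hsub]
      have h0 : ∑ x ∈ σ, (if (t.erase x).filter B = σ then sg (t.erase x \ σ) else 0) = 0 :=
        Finset.sum_eq_zero fun x hx => if_neg fun he => by
          have : x ∈ (t.erase x).filter B := by rw [he]; exact hx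
          simp at this
      rw [h0, add_zero, ← Finset.sum_add_distrib]
      refine Finset.sum_eq_zero fun x hx => ?_
      obtain ⟨hxt, hxσ⟩ := Finset.mem_sdiff.mp hx
      have e : (t.erase x).filter B = σ := by
        rw [Finset.filter_erase, hσ, Finset.erase_eq_of_notMem hxσ]
      rw [if_pos e, Finset.erase_sdiff_comm]
      exact add_self' _
    · rw [if_neg hσ, map_zero, zero_add]
      refine Finset.sum_eq_zero fun x hx => if_neg fun he => hσ ?_
      rw [Finset.filter_erase] at he
      by_cases hxB : x ∈ t.filter B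
      · have := Finset.card_erase_add_one hxB
        rw [he] at this
        omega
      · rwa [Finset.erase_eq_of_notMem hxB] at he
  rw [Submodule.mem_bot, LinearMap.add_apply] at h
  exact (add_eq_zero_iff_eq_neg.mp h).trans (ZModModule.neg_eq_self _)

theorem bd_join {σ : Finset α} {w : Ch α} (hw : w ∈ On fun t => Disjoint σ t) :
    bd (joinBy σ w) = joinBy σ (bd w) + rest σ w := by
  have h : (bd.comp (joinBy σ) + ((joinBy σ).comp bd + rest σ)) w ∈
      (⊥ : Submodule (ZMod 2) (Ch α)) := by
    refine map_On _ (fun t ht => ?_) hw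
    rw [Submodule.mem_bot]
    simp only [LinearMap.add_apply, LinearMap.comp_apply, joinBy, rest, lift_sg, bd_sg, map_sum]
    rw [Finset.sum_union ht]
    have e1 : ∑ x ∈ σ, sg ((σ ∪ t).erase x) = ∑ x ∈ σ, sg (σ.erase x ∪ t) := by
      refine Finset.sum_congr rfl fun x hx => ?_
      rw [Finset.erase_union_distrib, Finset.erase_eq_of_notMem (Finset.disjoint_left.mp ht hx)]
    have e2 : ∑ x ∈ t, sg ((σ ∪ t).erase x) = ∑ x ∈ t, sg (σ ∪ t.erase x) := by
      refine Finset.sum_congr rfl fun x hx => ?_
      rw [Finset.erase_union_distrib, Finset.erase_eq_of_notMem (Finset.disjoint_right.mp ht hx)]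
    rw [e1, e2, add_comm (∑ x ∈ t, sg (σ ∪ t.erase x))]
    exact add_self' _
  rw [Submodule.mem_bot, LinearMap.add_apply] at h
  exact (add_eq_zero_iff_eq_neg.mp h).trans (ZModModule.neg_eq_self _)

variable {B}

/-- A cycle is homologous to one without bad vertices. -/
theorem goodify {P : Finset α → Prop} (hP : ∀ s t, s ⊆ t → P t → P s) {k : ℕ}
    (hL : ∀ σ : Finset α, σ.Nonempty → (∀ x ∈ σ, B x) → P σ → σ.card ≤ k →
      Acyc (fun t => (∀ x ∈ t, ¬ B x) ∧ P (σ ∪ t)) (k - σ.card))
    {z : Ch α} (hz : z ∈ On (fun s => P s ∧ s.card = k)) (hzc : bd z = 0) :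
    ∃ y ∈ On (fun s => P s ∧ s.card = k + 1),
      z + bd y ∈ On (fun s => (P s ∧ ∀ x ∈ s, ¬ B x) ∧ s.card = k) := by
  classical
  suffices H : ∀ s, ∀ z ∈ On (fun t => (P t ∧ t.card = k) ∧ (t.filter B).card ≤ s), bd z = 0 →
      ∃ y ∈ On (fun s => P s ∧ s.card = k + 1),
        z + bd y ∈ On (fun s => (P s ∧ ∀ x ∈ s, ¬ B x) ∧ s.card = k) from
    H k z (On_mono (fun t ht => ⟨ht, ht.2 ▸ Finset.card_filter_le _ _⟩) hz) hzc
  intro s
  induction s with
  | zero =>
    intro z hz _
    refine ⟨0, Submodule.zero_mem _, ?_⟩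
    rw [map_zero, add_zero]
    refine On_mono (fun t ht => ⟨⟨ht.1.1, fun x hx hB => ?_⟩, ht.1.2⟩) hz
    have : (t.filter B).card = 0 := Nat.le_zero.mp ht.2
    rw [Finset.card_eq_zero, Finset.filter_eq_empty_iff] at this
    exact this hx hB
  | succ s ih =>
    intro z hz hzc
    set T := (z.support.filter fun t => (t.filter B).card = s + 1).image (fun t => t.filter B)
      with hT
    have hTmem : ∀ σ ∈ T, σ.Nonempty ∧ (∀ x ∈ σ, B x) ∧ P σ ∧ σ.card ≤ k ∧ σ.card = s + 1 := by
      intro σ hσ
      simp only [hT, Finset.mem_image, Finset.mem_filter] at hσ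
      obtain ⟨t, ⟨ht, hc⟩, rfl⟩ := hσ
      obtain ⟨⟨hPt, hk⟩, -⟩ := mem_On.mp hz t ht
      refine ⟨Finset.card_pos.mp (by omega), fun x hx => (Finset.mem_filter.mp hx).2,
        hP _ _ (Finset.filter_subset _ _) hPt, hk ▸ Finset.card_filter_le _ _, hc⟩
    have hfill : ∀ σ, ∃ y : Ch α, σ ∈ T →
        y ∈ On (fun t => ((∀ x ∈ t, ¬ B x) ∧ P (σ ∪ t)) ∧ t.card = k - σ.card + 1) ∧
        bd y = proj B σ z := by
      intro σ
      by_cases hσ : σ ∈ T
      · obtain ⟨h1, h2, h3, h4, h5⟩ := hTmem σ hσ
        have hp : proj B σ z ∈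
            On (fun t => ((∀ x ∈ t, ¬ B x) ∧ P (σ ∪ t)) ∧ t.card = k - σ.card) := by
          refine map_On _ (fun t ht => ?_) hz
          rw [proj, lift_sg]
          split_ifs with h
          · have hsub : σ ⊆ t := h ▸ Finset.filter_subset _ _
            refine sg_mem ⟨⟨fun x hx hB => ?_, ?_⟩, ?_⟩
            · obtain ⟨hxt, hxσ⟩ := Finset.mem_sdiff.mp hx
              exact hxσ (h ▸ Finset.mem_filter.mpr ⟨hxt, hB⟩)
            · rw [Finset.union_sdiff_of_subset hsub]
              exact ht.1.1
            · rw [Finset.card_sdiff_of_subset hsub, ht.1.2]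
          · exact Submodule.zero_mem _
        have hc : bd (proj B σ z) = 0 := by
          rw [bd_proj B (On_mono (fun t ht => by omega) hz), hzc, map_zero]
        obtain ⟨y, hy, hy'⟩ := hL σ h1 h2 h3 h4 _ hp hc
        exact ⟨y, fun _ => ⟨hy, hy'⟩⟩
      · exact ⟨0, fun h => absurd h hσ⟩
    choose Y hY using hfill
    set y := ∑ σ ∈ T, joinBy σ (Y σ) with hy
    have hdisj : ∀ σ ∈ T, ∀ t : Finset α, (∀ x ∈ t, ¬ B x) → Disjoint σ t := fun σ hσ t ht =>
      Finset.disjoint_left.mpr fun x hx hxt => ht x hxt ((hTmem σ hσ).2.1 x hx)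
    have hyOn : y ∈ On (fun s => P s ∧ s.card = k + 1) := by
      refine Submodule.sum_mem _ fun σ hσ => map_On _ (fun t ht => ?_) (hY σ hσ).1
      rw [joinBy, lift_sg]
      refine sg_mem ⟨ht.1.2, ?_⟩
      have := (hTmem σ hσ).2.2.2.1
      rw [Finset.card_union_of_disjoint (hdisj σ hσ t ht.1.1), ht.2]
      omega
    have hz' : z + bd y ∈ On (fun t => (P t ∧ t.card = k) ∧ (t.filter B).card ≤ s) := by
      have e : bd y = ∑ σ ∈ T, joinBy σ (proj B σ z) + ∑ σ ∈ T, rest σ (Y σ) := by
        rw [hy, map_sum, ← Finset.sum_add_distrib]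
        refine Finset.sum_congr rfl fun σ hσ => ?_
        rw [bd_join (On_mono (fun t ht => hdisj σ hσ t ht.1.1) (hY σ hσ).1), (hY σ hσ).2]
      rw [e, ← add_assoc]
      refine Submodule.add_mem _ ?_ (Submodule.sum_mem _ fun σ hσ => map_On _ (fun t ht => ?_)
        (hY σ hσ).1)
      · have h := map_On (z := z) (P := fun t => t ∈ z.support)
          (M := On (fun t => (P t ∧ t.card = k) ∧ (t.filter B).card ≤ s))
          (LinearMap.id + ∑ σ ∈ T, (joinBy σ).comp (proj B σ)) (fun t ht => ?_) (fun t ht => ht)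
        · simpa [LinearMap.add_apply, LinearMap.sum_apply] using h
        · obtain ⟨h1, h2⟩ := mem_On.mp hz t ht
          simp only [LinearMap.add_apply, LinearMap.id_apply, LinearMap.sum_apply,
            LinearMap.comp_apply, proj, lift_sg, apply_ite (joinBy _), map_zero]
          rw [Finset.sum_ite_eq]
          by_cases hs : (t.filter B).card = s + 1
          · rw [if_pos (Finset.mem_image_of_mem _ (Finset.mem_filter.mpr ⟨ht, hs⟩)), joinBy,
              lift_sg, Finset.union_sdiff_of_subset (Finset.filter_subset _ _), add_self']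
            exact Submodule.zero_mem _
          · rw [if_neg (fun hm => hs (hTmem _ hm).2.2.2.2), add_zero]
            exact sg_mem ⟨h1, by omega⟩
      · rw [rest, lift_sg]
        refine Submodule.sum_mem _ fun x hx => sg_mem ⟨⟨hP _ _
          (Finset.union_subset_union (Finset.erase_subset _ _) le_rfl) ht.1.2, ?_⟩, ?_⟩
        · have := (hTmem σ hσ).2.2.2.1
          have := Finset.card_erase_add_one hx
          rw [Finset.card_union_of_disjoint
            ((hdisj σ hσ t ht.1.1).mono_left (Finset.erase_subset _ _)), ht.2]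
          omega
        · have := (hTmem σ hσ).2.2.2.2
          have := Finset.card_erase_add_one hx
          rw [Finset.filter_union, Finset.filter_false_of_mem ht.1.1, Finset.union_empty]
          have := Finset.card_filter_le (σ.erase x) B
          omega
    obtain ⟨y', hy', h⟩ := ih _ hz' (by rw [map_add, bd_bd, hzc, add_zero])
    refine ⟨y + y', Submodule.add_mem _ hyOn hy', ?_⟩
    rwa [map_add, ← add_assoc]

end Vale.Agent.P067.PB
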