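import Vale.Agent.P067.PB.Goodify

/-!
The complex of partial bases of a module over a ring with a Euclidean size function is acyclic in
degrees below the rank (Maazen's retraction).
-/

namespace Vale.Agent.P067.PB

open Finset Vale.Agent.P067.Sub

variable (A : Type*) [CommRing A] {M : Type*} [AddCommGroup M] [Module A M] [DecidableEq M]

/-- A partial basis: a finite set with a dual family of functionals. -/
def IsPB (S : Finset M) : Prop :=
  ∃ f : M → (M →ₗ[A] A), ∀ v ∈ S, ∀ w ∈ S, f v w = if v = w then 1 else 0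

/-- The faces of the link of a partial basis `U`. -/
def Lk (U s : Finset M) : Prop :=
  Disjoint U s ∧ IsPB A (U ∪ s)

/-- A size function with division, whose small elements lie in an ideal of quasi-regular
elements. -/
structure Size where
  deg : A → ℕ
  small : Ideal A
  deg_eq_zero : ∀ a, deg a = 0 ↔ a ∈ small
  unit : ∀ x ∈ small, IsUnit (1 - x)
  div : ∀ a b, deg b ≠ 0 → ∃ q, deg (a - q * b) < deg b

variable {A}

theorem IsPB.mono {S T : Finset M} (h : IsPB A T) (hST : S ⊆ T) : IsPB A S :=
  ⟨h.choose, fun v hv w hw => h.choose_spec v (hST hv) w (hST hw)⟩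

theorem Lk.mono {U s t : Finset M} (h : Lk A U t) (hst : s ⊆ t) : Lk A U s :=
  ⟨h.1.mono_right hst, h.2.mono (Finset.union_subset_union le_rfl hst)⟩

variable [Nontrivial A]

/-- The cone point: a vector at which a functional vanishing on `U` is one. -/
theorem Lk.insert_apex (S : Size A) {U t : Finset M} (h : Lk A U t) {e : M} {l : M →ₗ[A] A}
    (hU : ∀ u ∈ U, l u = 0) (he : l e = 1) (ht : ∀ x ∈ t, l x ∈ S.small) :
    e ∉ t ∧ Lk A U (insert e t) := by
  have h10 : ¬ ((1 : A) ∈ S.small) := fun h1 => by
    have := S.unit 1 h1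
    rw [sub_self] at this
    exact zero_ne_one (isUnit_zero_iff.mp this)
  have het : e ∉ t := fun hh => h10 (he ▸ ht e hh)
  have heU : e ∉ U := fun hh => zero_ne_one ((hU e hh).symm.trans he)
  obtain ⟨hd, f, hf⟩ := h
  have hmem : (∑ v ∈ t, l v * f v e) ∈ S.small :=
    Ideal.sum_mem _ fun v hv => Ideal.mul_mem_right _ _ (ht v hv)
  obtain ⟨c, hc⟩ := (S.unit _ hmem).exists_left_inv
  set g : M →ₗ[A] A := c • (l - ∑ v ∈ t, l v • f v) with hg
  have hge : g e = 1 := by
    simp only [hg, LinearMap.smul_apply, LinearMap.sub_apply, LinearMap.sum_apply, smul_eq_mul, he]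
    exact hc
  have hgx : ∀ x ∈ U ∪ t, g x = 0 := by
    intro x hx
    simp only [hg, LinearMap.smul_apply, LinearMap.sub_apply, LinearMap.sum_apply, smul_eq_mul]
    have e1 : ∀ v ∈ t, l v * f v x = if v = x then l v else 0 := fun v hv => by
      rw [hf v (Finset.mem_union_right _ hv) x hx]
      split_ifs <;> simp
    rw [Finset.sum_congr rfl e1, Finset.sum_ite_eq']
    rcases Finset.mem_union.mp hx with hxU | hxt
    · rw [if_neg (Finset.disjoint_left.mp hd hxU), hU x hxU]
      simp
    · rw [if_pos hxt]
      simp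
  refine ⟨het, Finset.disjoint_insert_right.mpr ⟨heU, hd⟩,
    fun v => if v = e then g else f v - f v e • g, ?_⟩
  intro v hv w hw
  rw [Finset.union_insert, Finset.mem_insert] at hv hw
  have hne : ∀ x ∈ U ∪ t, x ≠ e := fun x hx hxe => by
    rcases Finset.mem_union.mp hx with h | h
    · exact heU (hxe ▸ h)
    · exact het (hxe ▸ h)
  rcases hv with rfl | hv <;> rcases hw with rfl | hw
  · simpa using hge
  · simp only [↓reduceIte]
    rw [hgx w hw, if_neg (hne w hw).symm]
  · simp only [if_neg (hne v hv)]
    rw [LinearMap.sub_apply, LinearMap.smul_apply, hge, smul_eq_mul, mul_one, sub_self]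
  · simp only [if_neg (hne v hv)]
    rw [LinearMap.sub_apply, LinearMap.smul_apply, hgx w hw, smul_zero, sub_zero, hf v hv w hw]

/-- Subtracting multiples of a vertex of `U` from the others keeps a partial basis. -/
theorem Lk.retract {U t : Finset M} (h : Lk A U t) {w : M} (hw : w ∈ U) (q : M → A) :
    Lk A U (t.image fun x => x - q x • w) := by
  obtain ⟨hd, f, hf⟩ := h
  set a : M → M := fun x => x - q x • w with ha
  have hwt : w ∉ t := Finset.disjoint_left.mp hd hw
  have key : ∀ v ∈ U ∪ t, v ≠ w → ∀ x ∈ t, f v (a x) = if v = x then 1 else 0 := by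
    intro v hv hvw x hx
    simp only [ha, map_sub, map_smul, smul_eq_mul]
    rw [hf v hv x (Finset.mem_union_right _ hx), hf v hv w (Finset.mem_union_left _ hw),
      if_neg hvw, mul_zero, sub_zero]
  have hinj : ∀ x ∈ t, ∀ y ∈ t, a x = a y → x = y := by
    intro x hx y hy hxy
    by_contra hne
    have hxw : x ≠ w := fun e => hwt (e ▸ hx)
    have h1 := key x (Finset.mem_union_right _ hx) hxw x hx
    rw [hxy, key x (Finset.mem_union_right _ hx) hxw y hy, if_pos rfl, if_neg hne] at h1
    exact zero_ne_one h1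
  have hdis : Disjoint U (t.image a) := by
    rw [Finset.disjoint_right]
    intro y hy hyU
    obtain ⟨x, hx, rfl⟩ := Finset.mem_image.mp hy
    have hxw : x ≠ w := fun e => hwt (e ▸ hx)
    have hxU : x ≠ a x := fun e => Finset.disjoint_left.mp hd (e ▸ hyU) hx
    have h1 := key x (Finset.mem_union_right _ hx) hxw x hx
    rw [if_pos rfl, hf x (Finset.mem_union_right _ hx) (a x) (Finset.mem_union_left _ hyU),
      if_neg hxU] at h1
    exact zero_ne_one h1
  choose! pre hpre using fun y (hy : y ∈ t.image a) => Finset.mem_image.mp hy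
  refine ⟨hdis, fun v => if v ∈ U then (if v = w then f w + ∑ x ∈ t, q x • f x else f v)
    else f (pre v), ?_⟩
  intro v hv y hy
  rcases Finset.mem_union.mp hv with hvU | hvt
  · simp only [if_pos hvU]
    rcases Finset.mem_union.mp hy with hyU | hyt
    · split_ifs with h1 h2 h2
      · subst h1 h2
        rw [LinearMap.add_apply, LinearMap.sum_apply,
          hf v (Finset.mem_union_left _ hvU) v (Finset.mem_union_left _ hvU), if_pos rfl,
          Finset.sum_eq_zero, add_zero]
        intro x hx
        have hxv : x ≠ v := fun e => hwt (e ▸ hx)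
        rw [LinearMap.smul_apply, hf x (Finset.mem_union_right _ hx) v
          (Finset.mem_union_left _ hvU), if_neg hxv, smul_zero]
      · subst h1
        rw [LinearMap.add_apply, LinearMap.sum_apply,
          hf v (Finset.mem_union_left _ hvU) y (Finset.mem_union_left _ hyU), if_neg h2,
          Finset.sum_eq_zero, add_zero]
        intro x hx
        rw [LinearMap.smul_apply, hf x (Finset.mem_union_right _ hx) y
          (Finset.mem_union_left _ hyU),
          if_neg (fun (e : x = y) => Finset.disjoint_left.mp hd (e ▸ hyU) hx), smul_zero]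
      · rw [hf v (Finset.mem_union_left _ hvU) y (Finset.mem_union_left _ hyU), if_pos h2]
      · rw [hf v (Finset.mem_union_left _ hvU) y (Finset.mem_union_left _ hyU), if_neg h2]
    · have hne : v ≠ y := fun e => Finset.disjoint_left.mp hdis hvU (e ▸ hyt)
      rw [if_neg hne]
      obtain ⟨x, hx, rfl⟩ := Finset.mem_image.mp hyt
      split_ifs with h1
      · subst h1
        rw [LinearMap.add_apply, LinearMap.sum_apply]
        have e1 : ∀ u ∈ t, (q u • f u) (a x) = if u = x then q u else 0 := fun u hu => by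
          rw [LinearMap.smul_apply, key u (Finset.mem_union_right _ hu)
            (fun e => hwt (e ▸ hu)) x hx]
          split_ifs <;> simp
        rw [Finset.sum_congr rfl e1, Finset.sum_ite_eq', if_pos hx]
        simp only [ha, map_sub, map_smul, smul_eq_mul]
        rw [hf v (Finset.mem_union_left _ hvU) x (Finset.mem_union_right _ hx),
          hf v (Finset.mem_union_left _ hvU) v (Finset.mem_union_left _ hvU), if_pos rfl,
          if_neg (fun (e : v = x) => hwt (e ▸ hx))]
        ring
      · rw [key v (Finset.mem_union_left _ hvU) h1 x hx,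
          if_neg (fun (e : v = x) => Finset.disjoint_left.mp hd hvU (e ▸ hx))]
  · have hvU : v ∉ U := fun e => Finset.disjoint_left.mp hdis e hvt
    simp only [if_neg hvU]
    obtain ⟨hp, hpv⟩ := hpre v hvt
    rcases Finset.mem_union.mp hy with hyU | hyt
    · rw [hf _ (Finset.mem_union_right _ hp) y (Finset.mem_union_left _ hyU),
        if_neg (fun (e : pre v = y) => Finset.disjoint_left.mp hd (e ▸ hyU) hp),
        if_neg (fun (e : v = y) => hvU (e ▸ hyU))]
    · obtain ⟨x, hx, rfl⟩ := Finset.mem_image.mp hyt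
      rw [key _ (Finset.mem_union_right _ hp) (fun e => hwt (e ▸ hp)) x hx]
      by_cases hxp : pre v = x
      · rw [if_pos hxp, if_pos (hpv.symm.trans (congrArg a hxp))]
      · rw [if_neg hxp, if_neg (fun e => hxp (hinj _ hp x hx (hpv.trans e)))]

/-- **Maazen.** Partial bases form a complex that is acyclic below the rank. -/
theorem acyc_link (S : Size A) (n : ℕ)
    (hext : ∀ U : Finset M, IsPB A U → U.card < n →
      ∃ e : M, ∃ l : M →ₗ[A] A, (∀ u ∈ U, l u = 0) ∧ l e = 1)
    (k : ℕ) : ∀ U : Finset M, IsPB A U → k + U.card < n → Acyc (Lk A U) k := by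
  classical
  induction k using Nat.strong_induction_on with
  | _ k IH =>
  intro U hU hkn
  obtain ⟨e, l, hlU, hle⟩ := hext U hU (by omega)
  suffices H : ∀ N, ∀ z ∈ On (fun s => (Lk A U s ∧ ∀ x ∈ s, S.deg (l x) ≤ N) ∧ s.card = k),
      bd z = 0 → ∃ y ∈ On (fun s => Lk A U s ∧ s.card = k + 1), bd y = z by
    intro z hz hzc
    exact H (z.support.sup fun s => s.sup fun x => S.deg (l x)) z
      (fun s hs => ⟨⟨(hz hs).1, fun x hx => le_trans
        (Finset.le_sup (f := fun x => S.deg (l x)) hx)
        (Finset.le_sup (f := fun s => s.sup fun x => S.deg (l x)) hs)⟩, (hz hs).2⟩) hzc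
  intro N
  induction N with
  | zero =>
    intro z hz hzc
    refine ⟨cone e z, cone_On e (fun s hs hes => ?_) hz, by simpa [hzc] using bd_cone e z⟩
    refine ⟨(Lk.insert_apex S hs.1.1 hlU hle fun x hx => ?_).2, ?_⟩
    · exact (S.deg_eq_zero _).mp (Nat.le_zero.mp (hs.1.2 x hx))
    · rw [Finset.card_insert_of_notMem hes, hs.2]
  | succ N ihN =>
    intro z hz hzc
    have hL : ∀ σ : Finset M, σ.Nonempty → (∀ x ∈ σ, S.deg (l x) = N + 1) →
        (Lk A U σ ∧ ∀ x ∈ σ, S.deg (l x) ≤ N + 1) → σ.card ≤ k →
        Acyc (fun t => (∀ x ∈ t, ¬ S.deg (l x) = N + 1) ∧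
          (Lk A U (σ ∪ t) ∧ ∀ x ∈ σ ∪ t, S.deg (l x) ≤ N + 1)) (k - σ.card) := by
      intro σ hσne hσB hσP hσk
      obtain ⟨w, hw⟩ := hσne
      have hcard : (U ∪ σ).card = U.card + σ.card :=
        Finset.card_union_of_disjoint hσP.1.1
      have hσpos : 0 < σ.card := Finset.card_pos.mpr ⟨w, hw⟩
      intro z' hz' hzc'
      obtain ⟨v, hv, hv'⟩ := IH (k - σ.card) (by omega) (U ∪ σ) hσP.1.2 (by omega) z'
        (On_mono (fun s hs => by
          refine ⟨⟨?_, ?_⟩, hs.2⟩
          · rw [Finset.disjoint_union_left]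
            exact ⟨hs.1.2.1.1.mono_right Finset.subset_union_right,
              Finset.disjoint_left.mpr fun x hx hxs => hs.1.1 x hxs (hσB x hx)⟩
          · rw [Finset.union_assoc]
            exact hs.1.2.1.2) hz') hzc'
      have hdiv : ∀ x : M, ∃ q : A, S.deg (l (x - q • w)) ≤ N ∧ (S.deg (l x) ≤ N → q = 0) := by
        intro x
        by_cases hx : S.deg (l x) ≤ N
        · exact ⟨0, by simpa using hx, fun _ => rfl⟩
        · obtain ⟨q, hq⟩ := S.div (l x) (l w) (by rw [hσB w hw]; omega)
          refine ⟨q, ?_, fun h => absurd h hx⟩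
          rw [map_sub, map_smul, smul_eq_mul]
          rw [hσB w hw] at hq
          omega
      choose q hq hq0 using hdiv
      refine ⟨push w (fun x => x - q x • w) v, map_On _ (fun t ht => ?_) hv, ?_⟩
      · refine On_mono (fun t' ht' => ?_) (push_On w (fun x => x - q x • w) t)
        have hL := (ht.1.retract (Finset.mem_union_right _ hw) q).mono ht'.1
        have hgood : ∀ x ∈ t', S.deg (l x) ≤ N := fun x hx => by
          obtain ⟨x', -, rfl⟩ := Finset.mem_image.mp (ht'.1 hx)
          exact hq x'
        refine ⟨⟨fun x hx hB => ?_, ⟨?_, ?_⟩, fun x hx => ?_⟩, ht'.2.trans ht.2⟩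
        · have h1 := hgood x hx
          rw [hB] at h1
          omega
        · rw [Finset.disjoint_union_right]
          exact ⟨hσP.1.1, hL.1.mono_left Finset.subset_union_left⟩
        · rw [← Finset.union_assoc]
          exact hL.2
        · rcases Finset.mem_union.mp hx with h | h
          · exact (hσB x h).le
          · exact (hgood x h).trans (Nat.le_succ N)
      · rw [bd_push, hv']
        have h : (push w (fun x => x - q x • w) + (LinearMap.id : Ch M →ₗ[ZMod 2] Ch M)) z' ∈
            (⊥ : Submodule (ZMod 2) (Ch M)) := by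
          refine map_On _ (fun t ht => ?_) hz'
          rw [Submodule.mem_bot, LinearMap.add_apply, LinearMap.id_apply, push_fix, add_self']
          intro x hx
          have h1 := ht.1.2.2 x (Finset.mem_union_right _ hx)
          have h2 := ht.1.1 x hx
          show x - q x • w = x
          rw [hq0 x (by omega), zero_smul, sub_zero]
        rw [Submodule.mem_bot, LinearMap.add_apply, LinearMap.id_apply] at h
        exact (add_eq_zero_iff_eq_neg.mp h).trans (ZModModule.neg_eq_self _)
    obtain ⟨y, hy, hy'⟩ := goodify (P := fun s => Lk A U s ∧ ∀ x ∈ s, S.deg (l x) ≤ N + 1)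
      (B := fun x => S.deg (l x) = N + 1)
      (fun s t hst ht => ⟨ht.1.mono hst, fun x hx => ht.2 x (hst hx)⟩) hL hz hzc
    obtain ⟨y', hy1, hy2⟩ := ihN (z + bd y) (On_mono (fun s hs => ⟨⟨hs.1.1.1,
      fun x hx => by
        have h1 := hs.1.1.2 x hx
        have h2 := hs.1.2 x hx
        omega⟩, hs.2⟩) hy') (by rw [map_add, bd_bd, hzc, add_zero])
    refine ⟨y' + y, Submodule.add_mem _ hy1 (On_mono (fun s hs => ⟨hs.1.1, hs.2⟩) hy), ?_⟩
    rw [map_add, hy2, add_assoc, add_self', add_zero]

end Vale.Agent.P067.PB
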